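import Vale.Agent.P216.H933.Main

open Bundle Manifold Vale.Agent.P216
open scoped ContDiff

namespace Vale.Agent.Results.P216.Quasimorphisms

theorem result {E : Type} [NormedAddCommGroup E] [NormedSpace ℝ E] [FiniteDimensional ℝ E]
    {M : Type} [MetricSpace M] [CompactSpace M] [ChartedSpace E M] [IsManifold 𝓘(ℝ, E) ∞ M]
    [RiemannianBundle (fun x : M => TangentSpace 𝓘(ℝ, E) x)]
    [IsContMDiffRiemannianBundle 𝓘(ℝ, E) ∞ E (fun x : M => TangentSpace 𝓘(ℝ, E) x)]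
    [IsRiemannianManifold 𝓘(ℝ, E) M]
    (x₀ : M) (H : Subgroup (FundamentalGroup M x₀)) (hH : H.FiniteIndex) {P : Type} [Group P]
    (p : H →* P) (hp : Function.Surjective p)
    (h : (∃ (φ ψ : P → ℝ) (D : ℝ),
        (∀ x y, |φ (x * y) - φ x - φ y| ≤ D ∧ |ψ (x * y) - ψ x - ψ y| ≤ D) ∧
        (∀ x (n : ℤ), φ (x ^ n) = n * φ x ∧ ψ (x ^ n) = n * ψ x) ∧
        LinearIndependent ℝ ![φ, ψ]) ∨
      ∃ (X : Type) (_ : PseudoMetricSpace X) (_ : MulAction P X) (_ : IsIsometricSMul P X)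
        (x : X) (g k : P) (ε K : ℝ),
        (∀ a b c d : X, dist a c ^ 2 + dist b d ^ 2 ≤
          dist a b ^ 2 + dist b c ^ 2 + dist c d ^ 2 + dist d a ^ 2) ∧
        g * k = k * g ∧ 0 < ε ∧
        ∀ m n : ℤ, ε * (|(m : ℝ)| + |(n : ℝ)|) - K ≤ dist x ((g ^ m * k ^ n) • x)) :
    (primeClosedGeodesicImages M).Infinite :=
  Vale.Agent.P216.H933.main E x₀ H hH p hp h

end Vale.Agent.Results.P216.Quasimorphisms
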